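import Mathlib
import Vale.Agent.P092GK.Cone

/-!
P092 (helper20): every invariant Radon measure on `G ⧸ H` scales under the right translations by
the modulus of `H`.
-/

set_option linter.all false

open scoped ENNReal NNReal Pointwise
open MeasureTheory Measure Filter Topology Set

namespace Vale.Agent.P092C1

open Vale.Agent.P092GK

theorem polish (X : Type*) [TopologicalSpace X] [T2Space X] [LocallyCompactSpace X]
    [SecondCountableTopology X] : PolishSpace X := by
  letI := TopologicalSpace.metrizableSpaceMetric X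
  have e := UniformSpace.Completion.isDenseEmbedding_coe (α := X)
  have o : IsOpen (range ((↑) : X → UniformSpace.Completion X)) := isOpen_iff_mem_nhds.2 <| by
    rintro _ ⟨x, rfl⟩
    obtain ⟨Q, hQ, hx⟩ := exists_compact_mem_nhds x
    refine mem_of_superset (e.isDenseInducing.closure_image_mem_nhds hx) ?_
    rw [(hQ.image e.continuous).isClosed.closure_eq]
    exact image_subset_range _ _
  haveI := o.polishSpace
  exact e.isEmbedding.toHomeomorph.isClosedEmbedding.polishSpace

variable {G : Type} [Group G] [TopologicalSpace G] [IsTopologicalGroup G]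
  [SecondCountableTopology G] [MeasurableSpace G] [BorelSpace G] [LocallyCompactSpace G] [T2Space G]
  {H : Subgroup G} {η : Measure G} [MeasurableSpace (G ⧸ H)] [BorelSpace (G ⧸ H)]

/-- a function on `G ⧸ H` is measurable as soon as its lift is -/
theorem meas_quo (hH : IsClosed (H : Set G)) {β : Type*} [MeasurableSpace β] {φ : G ⧸ H → β}
    (h : Measurable fun g : G => φ g) : Measurable φ := by
  haveI := polish G
  haveI := hH
  exact (QuotientGroup.continuous_mk.measurable.measurable_comp_iff_of_surjective
    QuotientGroup.mk_surjective).1 h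

/-- the integral along the fibres -/
noncomputable def fib (η : Measure G) (H : Subgroup G) (f : G → ℝ≥0∞) (y : G ⧸ H) : ℝ≥0∞ :=
  ∫⁻ x, f (y.out * x) ∂η

theorem fib_mk (h : Hm H η) (f : G → ℝ≥0∞) (g : G) :
    fib η H f (g : G ⧸ H) = ∫⁻ x, f (g * x) ∂η := by
  obtain ⟨x, hx, e⟩ := out_mem H g
  rw [fib, e, ← h.lint_left hx fun u => f (g * u)]
  simp only [mul_assoc]

theorem meas_fib (h : Hm H η) {f : G → ℝ≥0∞} (hf : Measurable f) : Measurable (fib η H f) := by
  haveI := h.sfin
  refine meas_quo h.cl ?_
  simp only [fib_mk h]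
  exact (hf.comp measurable_mul).lintegral_prod_right'

/-- the measure on `G` over an invariant measure on `G ⧸ H` is a Haar measure -/
theorem exists_lift (μ : Measure G) [μ.IsHaarMeasure] (h : Hm H η) (ν : Measure (G ⧸ H))
    [IsFiniteMeasureOnCompacts ν] [SMulInvariantMeasure G (G ⧸ H) ν] :
    ∃ c : ℝ≥0, ∀ f, Measurable f → ∫⁻ y, fib η H f y ∂ν = c * ∫⁻ g, f g ∂μ := by
  have ml : ∀ g : G, Measurable fun x => g * x := fun g => measurable_const_mul g
  have mk : Measurable fun y : G ⧸ H => η.map fun x => y.out * x :=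
    Measure.measurable_of_measurable_coe _ fun S hS => by
      have e : (fun y : G ⧸ H => η.map (fun x => y.out * x) S) = fib η H (S.indicator 1) :=
        funext fun y => by
          rw [← lintegral_indicator_one hS, lintegral_map (measurable_one.indicator hS) (ml _)]
          rfl
      rw [e]
      exact meas_fib h (measurable_one.indicator hS)
  obtain ⟨m, hm⟩ : ∃ m : Measure G, ∀ f, Measurable f → ∫⁻ g, f g ∂m = ∫⁻ y, fib η H f y ∂ν :=
    ⟨ν.bind fun y => η.map fun x => y.out * x, fun f hf => by
      rw [lintegral_bind mk.aemeasurable hf.aemeasurable]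
      exact lintegral_congr fun y => lintegral_map hf (ml _)⟩
  obtain ⟨c, hc⟩ := (hm_top μ).uniq' (η' := m) (Eventually.of_forall fun _ => trivial)
    (fun s _ => ext_of_lintegral _ fun f hf => by
      rw [lintegral_map hf (ml s), hm (fun a => f (s * a)) (hf.comp (ml s)), hm f hf,
        ← (measurePreserving_smul s ν).lintegral_comp (meas_fib h hf)]
      refine lintegral_congr fun y => ?_
      induction y using QuotientGroup.induction_on with
      | H g =>
        rw [mk_smul, fib_mk h, fib_mk h]
        simp only [mul_assoc])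
    fun C hC => by
      have hπ : IsCompact ((fun g : G => (g : G ⧸ H)) '' C) :=
        hC.image QuotientGroup.continuous_mk
      haveI := h.cl
      rw [← lintegral_indicator_one hC.measurableSet, hm _ (measurable_one.indicator hC.measurableSet)]
      refine (lintegral_mono (g := ((fun g : G => (g : G ⧸ H)) '' C).indicator
        fun _ => η (C⁻¹ * C)) fun y => ?_).trans_lt ?_
      · by_cases hy : y ∈ (fun g : G => (g : G ⧸ H)) '' C
        · rw [indicator_of_mem hy]
          obtain ⟨g, hg, rfl⟩ := hy
          change fib η H _ (g : G ⧸ H) ≤ _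
          rw [fib_mk h, ← lintegral_indicator_one (hC.inv.mul hC).measurableSet]
          refine lintegral_mono fun x => ?_
          by_cases hx : g * x ∈ C
          · rw [indicator_of_mem hx, indicator_of_mem
              (show x ∈ C⁻¹ * C from ⟨g⁻¹, Set.inv_mem_inv.2 hg, _, hx, by simp⟩)]
            exact le_rfl
          · rw [indicator_of_notMem hx]; exact zero_le
        · rw [indicator_of_notMem hy]
          induction y using QuotientGroup.induction_on with
          | H g =>
            change fib η H _ (g : G ⧸ H) ≤ _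
            rw [fib_mk h, lintegral_congr_ae (g := fun _ => 0), lintegral_zero]
            filter_upwards [h.ae] with x hx
            exact indicator_of_notMem (fun e => hy ⟨_, e, (QuotientGroup.eq.2 (by
              simpa using hx)).symm⟩) _
      · rw [lintegral_indicator hπ.measurableSet, setLIntegral_const]
        exact ENNReal.mul_lt_top (h.fin _ (hC.inv.mul hC)) hπ.measure_lt_top
  refine ⟨c, fun f hf => ?_⟩
  rw [← hm f hf, hc, ENNReal.smul_def, lintegral_smul_measure, smul_eq_mul]

/-- **scaling of an invariant measure under the right translations** -/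
theorem inv_rt (μ : Measure G) [μ.IsHaarMeasure] [μ.IsMulRightInvariant]
    (hH : IsClosed (H : Set G)) (ν : Measure (G ⧸ H)) [IsFiniteMeasureOnCompacts ν]
    [SMulInvariantMeasure G (G ⧸ H) ν] {q : G} (hq : q ∈ Subgroup.normalizer (H : Set G)) :
    eo (mdl H q) • ν.map (rt H q) = ν := by
  obtain ⟨η, h⟩ := exists_hm hH
  obtain ⟨ψ, hψ⟩ := h.exists_br
  obtain ⟨c, hc⟩ := exists_lift μ h ν
  refine ext_of_lintegral _ fun φ hφ => ?_
  have mf : Measurable fun g : G => ψ g * φ g :=
    hψ.meas.mul (hφ.comp QuotientGroup.continuous_mk.measurable)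
  have e1 : ∀ g : G, ∫⁻ x, ψ (g * x) * φ ((g * x : G) : G ⧸ H) ∂η = φ g := fun g => by
    rw [lintegral_congr_ae (g := fun x => ψ (g * x) * φ g),
      lintegral_mul_const (f := fun x => ψ (g * x)) _ (hψ.meas.comp (measurable_const_mul g)),
      hψ.one, one_mul]
    filter_upwards [h.ae] with x hx
    rw [(QuotientGroup.eq.2 (by simpa using hx) : ((g * x : G) : G ⧸ H) = g)]
  have e2 : fib η H (fun g : G => ψ g * φ g) = φ := funext fun y => by
    induction y using QuotientGroup.induction_on with
    | H g => rw [fib_mk h, e1]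
  have e3 : fib η H (fun g : G => ψ (g * q) * φ ((g * q : G) : G ⧸ H)) =
      fun y => eo (mdl H q) * φ (rt H q y) := funext fun y => by
    induction y using QuotientGroup.induction_on with
    | H g =>
      rw [fib_mk h, rt_mk hq, ← e1 (g * q), ← h.lint_conj hq]
      refine lintegral_congr fun x => ?_
      rw [show g * q * (q⁻¹ * x * q) = g * x * q by group]
  have h1 := hc _ mf
  have h2 := hc _ (mf.comp (measurable_mul_const q))
  change ∫⁻ y, fib η H (fun g : G => ψ (g * q) * φ ((g * q : G) : G ⧸ H)) y ∂ν =
    c * ∫⁻ g, ψ (g * q) * φ ((g * q : G) : G ⧸ H) ∂μ at h2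
  rw [lintegral_mul_right_eq_self (fun g : G => ψ g * φ g) q, ← h1, e2, e3,
    lintegral_const_mul' _ _ (eo_ne_top _)] at h2
  rw [lintegral_smul_measure, lintegral_map hφ (cont_rt hq).measurable, smul_eq_mul, h2]

theorem cancel (hH : IsClosed (H : Set G)) {ν ν' : Measure (G ⧸ H)} [IsFiniteMeasureOnCompacts ν]
    (h0 : ν ≠ 0) {a b : ℝ≥0∞} (ha : a • ν' = ν) (hb : b • ν' = ν) : a = b := by
  haveI := hH
  obtain ⟨U, hU, p1⟩ : ∃ U, IsCompact U ∧ ν U ≠ 0 := by
    by_contra hn
    refine h0 (Measure.measure_univ_eq_zero.1 ?_)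
    rw [← iUnion_compactCovering]
    exact measure_iUnion_null fun n => by_contra fun e => hn ⟨_, isCompact_compactCovering _ n, e⟩
  have f1 : ν U ≠ ∞ := hU.measure_lt_top.ne
  have a1 : a * ν' U = ν U := congrArg (fun m : Measure _ => m U) ha
  have a2 : b * ν' U = ν U := congrArg (fun m : Measure _ => m U) hb
  refine (ENNReal.mul_left_inj p1 f1).1 ?_
  calc a * ν U = a * (b * ν' U) := by rw [a2]
    _ = b * (a * ν' U) := mul_left_comm _ _ _
    _ = _ := by rw [a1]

/-- the modulus of a right translation -/
theorem mod_rt (μ : Measure G) [μ.IsHaarMeasure] [μ.IsMulRightInvariant]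
    (hH : IsClosed (H : Set G)) {ν : Measure (G ⧸ H)} [IsFiniteMeasureOnCompacts ν]
    [SMulInvariantMeasure G (G ⧸ H) ν] (h0 : ν ≠ 0) {q : G}
    (hq : q ∈ Subgroup.normalizer (H : Set G)) {κ : ℝ≥0∞} (e : κ • ν.map (rt H q) = ν) :
    κ = eo (mdl H q) := cancel hH h0 e (inv_rt μ hH ν hq)

/-- a closed subgroup with an invariant measure on the quotient is unimodular -/
theorem uni_of (μ : Measure G) [μ.IsHaarMeasure] [μ.IsMulRightInvariant]
    (hH : IsClosed (H : Set G)) {ν : Measure (G ⧸ H)} [IsFiniteMeasureOnCompacts ν]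
    [SMulInvariantMeasure G (G ⧸ H) ν] (h0 : ν ≠ 0) {q : G} (hq : q ∈ H) : mdl H q = 0 := by
  refine (eo_inj ((mod_rt μ hH h0 (Subgroup.le_normalizer hq) (κ := eo 0) ?_))).symm
  rw [eo_zero, one_smul, show rt H q = id from funext (rt_of_mem hq), Measure.map_id]

end Vale.Agent.P092C1
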