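import Vale.Agent.P092HR.Defs
import Vale.Agent.P092C1.Rt

/-!
P092, higher rank (helper20): the speed preserves `ρ`.
-/

set_option linter.all false

open scoped InnerProductSpace ENNReal NNReal
open MeasureTheory Filter Topology ContinuousLinearMap Set

namespace Vale.Agent.P092C1

open Vale.Agent.P092CP Vale.Agent.P092RD Vale.Agent.P092GK Vale.Agent.P092HR
open Vale.Agent.P092MA (Fam D5 Scl)
open scoped Vale.Agent.P092HR

variable {k : Type} [NontriviallyNormedField k] {G K : Type} [Group G] [TopologicalSpace G]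
  [IsTopologicalGroup G] [LocallyCompactSpace G] [SecondCountableTopology G] [T2Space G]
  [MeasurableSpace G] [BorelSpace G] [NormedAddCommGroup K] [InnerProductSpace ℂ K]
  [CompleteSpace K] {μ : Measure G} [μ.IsHaarMeasure] {W : Set (K →L[ℂ] K)} {r : ℕ}
  {X : Type} [NormedAddCommGroup X] [NormedSpace ℝ X] {F : FlD k G r} {C : Cpl μ μ W}
  {L : Aa r →ₗ[ℝ] Aa r} {E : POM (YY F) K} {H H' : Subgroup G} {t : Aa r →ₗ[ℝ] X}
  {θ : POM (G ⧸ H') K} {ϑ : G ⧸ H → POM (G ⧸ H') K} {ν : Measure (G ⧸ H)}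
  {ν' : Measure (G ⧸ H')}

/-- corresponding right translations on the two cones -/
theorem scl (h : Fl F) (c : Cs F L H H' t) (x : Tx F C L E H' t θ) (m : Fm C θ ϑ)
    (n : Nu F μ H ν) {p q : G} (hp : p ∈ PP F) (hq : q ∈ PP F)
    (e : t (F.ℓ q) = t (L (F.ℓ p))) : Scl ν ϑ (rt H p) (rt H' q) (eo (F.ρ (F.ℓ p))) where
  mr := (cont_rt (h.Ht_nrm c.src hp)).measurable
  mr' := (cont_rt (h.Ht_nrm c.tgt hq)).measurable
  map := n.map p hp
  sh z S hS := by
    have mq := (cont_rt (h.Ht_nrm c.tgt hq)).measurable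
    induction z using QuotientGroup.induction_on with
    | H g =>
      rw [rt_mk (h.Ht_nrm c.src hp), POM.P, POM.P, m.base _ _ (bd_ind1 hS),
        m.base _ _ (bd_ind1 (mq hS)),
        show (rt H' q ⁻¹' S).indicator (1 : G ⧸ H' → ℂ) = S.indicator 1 ∘ rt H' q from rfl,
        ← x.mv p hp q hq e _ (bd_ind1 hS), mul_inv_rev, map_mul, map_mul]
      simp only [mul_assoc]

/-- the target measure scales by `ρ` -/
theorem map_tgt (h : Fl F) (e : F.Ht H' t) (d : D5 C ν ϑ ν') {q : G} (hq : q ∈ PP F) :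
    eo (F.ρ (F.ℓ q)) • ν'.map (rt H' q) = ν' := by
  haveI := C.s.right
  haveI := d.inv'
  haveI := d.fin'
  haveI := h.Ht_cl e
  rw [← h.mdl_Ht e hq]
  exact inv_rt μ (h.Ht_cl e) ν' (h.Ht_nrm e hq)

/-- corresponding elements have the same modulus -/
theorem rho_eq (h : Fl F) (c : Cs F L H H' t) (x : Tx F C L E H' t θ) (m : Fm C θ ϑ)
    (n : Nu F μ H ν) (d : D5 C ν ϑ ν') {p q : G} (hp : p ∈ PP F) (hq : q ∈ PP F)
    (e : t (F.ℓ q) = t (L (F.ℓ p))) : F.ρ (F.ℓ q) = F.ρ (F.ℓ p) := by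
  haveI := d.fin'
  haveI := h.Ht_cl c.tgt
  haveI := h.Ht_cl c.src
  exact eo_inj (cancel (h.Ht_cl c.tgt) d.ne' (map_tgt h c.tgt d hq) (d.map (scl h c x m n hp hq e)))

/-- **C1** -/
theorem c1 (g : Gr F) (s : Sp F L) (c : Cs F L H H' t) (x : Tx F C L E H' t θ) (m : Fm C θ ϑ)
    (n : Nu F μ H ν) (d : D5 C ν ϑ ν') : ∀ x, F.ρ (L x) = F.ρ x := by
  have h := g.fl
  have e : F.ρ ∘ₗ L = F.ρ := lin_ext h.β_pos.ne' fun i => by
    obtain ⟨q, hq, e⟩ := s.lat _ (h.bZ i)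
    have h1 := rho_eq h c x m n d (h.z_mem_P (h.bZ i) _) (h.z_mem_P hq _) (congrArg t e)
    rw [e, h.bℓ] at h1
    exact h1
  exact fun x => LinearMap.congr_fun e x

end Vale.Agent.P092C1
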