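import Vale.Agent.P092MA.Hom

/-!
P092 (helper20): uniqueness of the invariant measure on a homogeneous space.
-/

set_option linter.all false

open scoped ENNReal
open MeasureTheory Filter Topology Set

namespace Vale.Agent.P092C1

open Vale.Agent.P092MA

variable {G Y : Type} [Group G] [TopologicalSpace G] [IsTopologicalGroup G] [LocallyCompactSpace G]
  [SecondCountableTopology G] [T2Space G] [MeasurableSpace G] [BorelSpace G]
  [TopologicalSpace Y] [T2Space Y] [LocallyCompactSpace Y]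
  [SecondCountableTopology Y] [MeasurableSpace Y] [BorelSpace Y] [MulAction G Y]
  [ContinuousSMul G Y] [MulAction.IsPretransitive G Y]

/-- an almost invariant function on a homogeneous space is almost constant -/
theorem ae_const (μ : Measure G) [μ.IsHaarMeasure] [μ.IsMulRightInvariant] {ν : Measure Y}
    [SFinite ν] [SMulInvariantMeasure G Y ν] (h0 : ν ≠ 0) {D : Y → ℝ≥0∞} (hD : Measurable D)
    (e : ∀ g : G, ∀ᵐ y ∂ν, D (g • y) = D y) : ∃ c, ∀ᵐ y ∂ν, D y = c := by
  have hm : MeasurableSet {p : G × Y | D (p.1 • p.2) = D p.2} :=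
    measurableSet_eq_fun (hD.comp (continuous_smul (M := G) (X := Y)).measurable)
      (hD.comp measurable_snd)
  have h1 : ∀ᵐ y ∂ν, ∀ᵐ g ∂μ, D (g • y) = D y :=
    (Measure.ae_ae_comm (p := fun g y => D (g • y) = D y) hm).1 (ae_of_all _ e)
  haveI : (ae ν).NeBot := ae_neBot.2 h0
  obtain ⟨y, hy⟩ := h1.exists
  refine ⟨D y, ?_⟩
  have hN : MeasurableSet {z | ¬ D z = D y} :=
    (measurableSet_eq_fun hD measurable_const).compl
  exact null_of_orb (μ := μ) (y := y) hN hy

/-- **uniqueness of the invariant measure** -/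
theorem uniq (μ : Measure G) [μ.IsHaarMeasure] [μ.IsMulRightInvariant] {ν ν' : Measure Y}
    [SigmaFinite ν] [SigmaFinite ν'] [SMulInvariantMeasure G Y ν] [SMulInvariantMeasure G Y ν']
    (h0 : ν ≠ 0) : ∃ c : ℝ≥0∞, ν' = c • ν := by
  obtain ⟨y⟩ : Nonempty Y := by
    by_contra hn
    rw [not_nonempty_iff] at hn
    exact h0 (Measure.eq_zero_of_isEmpty ν)
  have ac : ν' ≪ ν := Measure.AbsolutelyContinuous.mk fun N hN h =>
    null_of_orb (μ := μ) (y := y) hN (orb_null (μ := μ) h0 y hN h)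
  obtain ⟨c, hc⟩ := ae_const μ h0 (Measure.measurable_rnDeriv ν' ν) fun g => by
    have h1 := (MeasurableEquiv.smul g : Y ≃ᵐ Y).measurableEmbedding.rnDeriv_map ν' ν
    have e1 : ν.map (MeasurableEquiv.smul g : Y ≃ᵐ Y) = ν := (measurePreserving_smul g ν).map_eq
    have e2 : ν'.map (MeasurableEquiv.smul g : Y ≃ᵐ Y) = ν' := (measurePreserving_smul g ν').map_eq
    rw [e1, e2] at h1
    exact h1
  refine ⟨c, ?_⟩
  rw [← Measure.withDensity_rnDeriv_eq ν' ν ac, withDensity_congr_ae (g := fun _ => c) hc,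
    withDensity_const]

/-- the modulus of a self map is the same for all invariant measures -/
theorem mod_eq (μ : Measure G) [μ.IsHaarMeasure] [μ.IsMulRightInvariant] {ν ν' : Measure Y}
    [IsLocallyFiniteMeasure ν] [IsLocallyFiniteMeasure ν'] [SMulInvariantMeasure G Y ν]
    [SMulInvariantMeasure G Y ν'] (h0 : ν ≠ 0) (h0' : ν' ≠ 0) {r : Y → Y} {κ κ' : ℝ≥0∞}
    (hκ : κ ≠ ∞) (e : κ • ν.map r = ν) (e' : κ' • ν'.map r = ν') : κ = κ' := by
  obtain ⟨c, rfl⟩ := uniq μ (ν' := ν') h0
  haveI := openPos G h0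
  haveI := openPos G h0'
  obtain ⟨y⟩ : Nonempty Y := by
    by_contra hn
    rw [not_nonempty_iff] at hn
    exact h0 (Measure.eq_zero_of_isEmpty ν)
  obtain ⟨U, hU, hy⟩ := exists_compact_mem_nhds y
  have p1 : ν U ≠ 0 := (Measure.measure_pos_of_mem_nhds ν hy).ne'
  have p2 : (c • ν) U ≠ 0 := (Measure.measure_pos_of_mem_nhds _ hy).ne'
  have f2 : (c • ν) U ≠ ∞ := hU.measure_lt_top.ne
  have a1 : κ * ν.map r U = ν U := congrArg (fun m : Measure Y => m U) e
  have a2 : κ' * (c * ν.map r U) = c * ν U := by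
    have := congrArg (fun m : Measure Y => m U) e'
    rw [Measure.map_smul] at this
    exact this
  change c * ν U ≠ 0 at p2
  change c * ν U ≠ ∞ at f2
  have k0 : κ ≠ 0 := fun h => p1 (by rw [← a1, h, zero_mul])
  have a3 : κ * (c * ν U) = κ' * (c * ν U) := by
    calc κ * (c * ν U) = κ * (κ' * (c * ν.map r U)) := by rw [a2]
      _ = κ' * (c * (κ * ν.map r U)) := by ring
      _ = _ := by rw [a1]
  exact (ENNReal.mul_left_inj p2 f2).1 a3

end Vale.Agent.P092C1
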